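import Vale.Agent.N161.Final

/-!
# P161: Ising measures with couplings depending on the edge, on trees with degrees at most `d`,
are factors of IID up to the threshold `(d-1)^(-1/2)`
-/

open MeasureTheory Vale.Agent.N161

namespace Vale.Agent.Results.P161.A0AllCouplings

universe u

theorem result (d : ℕ) (hd : 3 ≤ d) (V : Type u) (G : SimpleGraph V) (hG : G.IsTree)
    (hdeg : ∀ v, (G.neighborSet v).encard ≤ d) (θ : Sym2 V → ℝ)
    (hθ : ∀ e ∈ G.edgeSet, |θ e| ≤ ((d : ℝ) - 1) ^ (-(1 / 2) : ℝ)) :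
    ∃ Φ : (V → unitInterval) → V → ℤˣ, IsRule G θ Φ ∧ ∀ ν, IsIsing G θ ν ↔
      ν = (Measure.infinitePi fun _ : V => (volume : Measure unitInterval)).map Φ := by
  obtain ⟨Φ, -, h1, h2, -⟩ := part2 hd hG hdeg θ hθ
  exact ⟨Φ, h1, h2⟩

end Vale.Agent.Results.P161.A0AllCouplings
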